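import Vale.Agent.P267.H869.PatchDefs
import Vale.Agent.P267.H869.MaxExt
import Vale.Agent.P267.H181.Frm

/-!
# P267 / XA-SMOOTH (helper869): patches, calculus
-/

set_option linter.unusedVariables false
set_option linter.unusedSectionVars false

open scoped Manifold ContDiff ComplexConjugate Matrix ComplexOrder Topology
open MeasureTheory Set Filter Metric

noncomputable section

namespace Vale.Agent.P267.H869

open FL
open Vale.Agent.P267.H306 (bp pr bpL bpL_apply Test0 Test1 D0 bp_add_left bp_add_right bp_smul_left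
  bp_smul_right bp_zero_left bp_zero_right norm_bp_le)
open Vale.Agent.P267.H181 (ext0 ext1 ext2)

section alg

variable {ι : Type} [Fintype ι] [DecidableEq ι]

theorem bp_comm (u v : EuclideanSpace ℂ ι) : bp u v = bp v u := by
  simp only [bp, mul_comm]

/-- sections of a line bundle are multiples of the frame -/
theorem eq_bp_smul {M : Type} [TopologicalSpace M] [ChartedSpace C2 M] (L : LB M ι) {x : M}
    {s t u : EuclideanSpace ℂ ι} (hs : LB.act (L.P x) s = s) (hst : bp s t = 1)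
    (hu : LB.act (L.P x) u = u) : u = bp u t • s := by
  have h0 : s ≠ 0 := by
    intro h
    rw [h, bp_zero_left] at hst
    exact zero_ne_one hst
  have h1 := H378.rank_one (L.herm x) (L.idem x) (L.tr x) hs h0 hu
  set c : ℂ := inner ℂ s u / (‖s‖ : ℂ) ^ 2
  have h2 : bp u t = c := by
    rw [h1, bp_smul_left, hst, mul_one]
  rw [h2]
  exact h1

end alg

variable {M : Type} [TopologicalSpace M] [ChartedSpace C2 M]
variable {ι : Type} [Fintype ι] [DecidableEq ι]

section pt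

variable {V : Type*} [NormedAddCommGroup V] [NormedSpace ℂ V]

theorem loc0_pt {κ : ℤ} {e : Ch M} {s s' : M → V} {z : C2} (h : s (e.symm z) = s' (e.symm z)) :
    loc0 κ e s z = loc0 κ e s' z := by simp only [loc0, h]

theorem loc1_pt {κ : ℤ} {e : Ch M} {s s' : M → Fin 2 → V} {z : C2}
    (h : s (e.symm z) = s' (e.symm z)) : loc1 κ e s z = loc1 κ e s' z := by
  funext i; simp only [loc1, h]

theorem loc2_pt {κ : ℤ} {e : Ch M} {s s' : M → V} {z : C2} (h : s (e.symm z) = s' (e.symm z)) :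
    loc2 κ e s z = loc2 κ e s' z := by simp only [loc2, h]

theorem loc1_zero_pt {κ : ℤ} {e : Ch M} {s : M → Fin 2 → V} {z : C2} (h : s (e.symm z) = 0) :
    loc1 κ e s z = 0 := by
  funext i; simp [loc1, h]

theorem loc2_zero_pt {κ : ℤ} {e : Ch M} {s : M → V} {z : C2} (h : s (e.symm z) = 0) :
    loc2 κ e s z = 0 := by simp [loc2, h]

theorem loc0_zero_pt {κ : ℤ} {e : Ch M} {s : M → V} {z : C2} (h : s (e.symm z) = 0) :
    loc0 κ e s z = 0 := by simp [loc0, h]

end pt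

variable [IsManifold 𝓘(ℂ, C2) ω M]

namespace Patch

variable {L : LB M ι} {a : M → Fin 2 → ℂ} (p : Patch L a)

omit [IsManifold 𝓘(ℂ, C2) ω M] in
theorem mem_dom {r : ℝ} {x : M} : x ∈ p.dom r ↔ x ∈ p.e.source ∧ p.e x ∈ ball (0 : C2) r := Iff.rfl

omit [IsManifold 𝓘(ℂ, C2) ω M] in
theorem isOpen_dom (r : ℝ) : IsOpen (p.dom r) := p.e.isOpen_inter_preimage isOpen_ball

omit [IsManifold 𝓘(ℂ, C2) ω M] in
theorem dom_mono {r r' : ℝ} (h : r ≤ r') : p.dom r ⊆ p.dom r' := fun x hx =>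
  ⟨hx.1, ball_subset_ball h hx.2⟩

omit [IsManifold 𝓘(ℂ, C2) ω M] in
theorem symm_mem_dom {r : ℝ} (hr : r ≤ 3) {z : C2} (hz : z ∈ ball (0 : C2) r) :
    p.e.symm z ∈ p.dom r := by
  have hz3 : z ∈ p.e.target := p.ball_sub (ball_subset_ball hr hz)
  refine ⟨p.e.map_target hz3, ?_⟩
  rw [mem_preimage, p.e.right_inv hz3]
  exact hz

omit [IsManifold 𝓘(ℂ, C2) ω M] in
theorem t_ne {x : M} (hx : x ∈ p.dom 3) : p.t x ≠ 0 := by
  intro h
  have := p.st x hx.1 hx.2
  rw [h, bp_zero_right] at this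
  exact zero_ne_one this

omit [IsManifold 𝓘(ℂ, C2) ω M] in
theorem eq_smul_s {x : M} (hx : x ∈ p.dom 3) {u : EuclideanSpace ℂ ι}
    (hu : LB.act (L.P x) u = u) : u = bp u (p.t x) • p.s x :=
  eq_bp_smul L (p.s_sec x hx.1 hx.2) (p.st x hx.1 hx.2) hu

omit [IsManifold 𝓘(ℂ, C2) ω M] in
theorem eq_smul_t {x : M} (hx : x ∈ p.dom 3) {u : EuclideanSpace ℂ ι}
    (hu : LB.act (L.dual.P x) u = u) : u = bp (p.s x) u • p.t x := by
  have h := eq_bp_smul L.dual (p.t_sec x hx.1 hx.2)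
    (by rw [bp_comm]; exact p.st x hx.1 hx.2) hu
  rwa [bp_comm u] at h

/-! ### test forms and their components -/

section test

variable [T2Space M]

theorem at1_J1 {n : WithTop ℕ∞} (hn : n ≤ ∞) {g : C2 → Fin 2 → ℂ} {x : M} (hx : x ∈ p.dom 3)
    (hg : ContDiffAt ℝ n g (p.e x)) : At1 n 1 (p.J1 g) x := by
  have h1 := max_at1_ext1 (κ := 1) p.e_mem hx.1 hg
  have h2 := (p.t_reg x hx.1 hx.2).of_le hn
  exact h1.smul_right' h2

theorem at0_J0 {n : WithTop ℕ∞} (hn : n ≤ ∞) {g : C2 → ℂ} {x : M} (hx : x ∈ p.dom 3)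
    (hg : ContDiffAt ℝ n g (p.e x)) : At0 n 1 (p.J0 g) x := by
  have h1 := max_at0_ext0 (κ := 1) p.e_mem hx.1 hg
  have h2 := (p.t_reg x hx.1 hx.2).of_le hn
  exact h1.smul' h2

theorem at2_J2 {n : WithTop ℕ∞} (hn : n ≤ ∞) {g : C2 → ℂ} {x : M} (hx : x ∈ p.dom 3)
    (hg : ContDiffAt ℝ n g (p.e x)) : At2 n 1 (p.J2 g) x := by
  have h1 := max_at2_ext2 (κ := 1) p.e_mem hx.1 hg
  have h2 := (p.t_reg x hx.1 hx.2).of_le hn
  exact At2.bilin' (B := ContinuousLinearMap.lsmul ℂ ℂ) h1 h2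

/-- `J1 g` is zero away from the support of `g` -/
theorem J1_eq_zero {g : C2 → Fin 2 → ℂ} {K : Set C2} (hK : ∀ z ∉ K, g z = 0) {x : M}
    (hx : x ∉ p.e.symm '' K) : p.J1 g x = 0 := by
  funext i
  rw [J1, H181.ext1_eq_zero hK hx]
  simp

theorem J0_eq_zero {g : C2 → ℂ} {K : Set C2} (hK : ∀ z ∉ K, g z = 0) {x : M}
    (hx : x ∉ p.e.symm '' K) : p.J0 g x = 0 := by
  rw [J0, H181.ext0_eq_zero hK hx, zero_smul]

theorem J2_eq_zero {g : C2 → ℂ} {K : Set C2} (hK : ∀ z ∉ K, g z = 0) {x : M}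
    (hx : x ∉ p.e.symm '' K) : p.J2 g x = 0 := by
  rw [J2, H181.ext2_eq_zero hK hx, zero_smul]

variable {Ω : Set C2}

theorem test_cpt {V : Type*} [NormedAddCommGroup V] [NormedSpace ℂ V] {g : C2 → V}
    (hg : Test Ω g) (hΩ : Ω ⊆ ball (0 : C2) 3) :
    IsCompact (tsupport g) ∧ tsupport g ⊆ p.e.target ∧
      IsClosed (p.e.symm '' tsupport g) ∧ IsCompact (p.e.symm '' tsupport g) := by
  have h1 : tsupport g ⊆ p.e.target := (hg.supp.trans hΩ).trans p.ball_sub
  exact ⟨hg.cpt, h1, H181.isClosed_symm_image hg.cpt h1,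
    hg.cpt.isCompact.image_of_continuousOn (p.e.continuousOn_symm.mono h1)⟩

theorem mem_dom_of_image (hΩ : Ω ⊆ ball (0 : C2) 3) {x : M} (hx : x ∈ p.e.symm '' Ω) :
    x ∈ p.dom 3 := by
  obtain ⟨z, hz, rfl⟩ := hx
  exact p.symm_mem_dom le_rfl (hΩ hz)

theorem t1F_J1 {g : C2 → Fin 2 → ℂ} (hg : Test Ω g) (hΩ : Ω ⊆ ball (0 : C2) 3) :
    T1F L (p.e.symm '' Ω) (p.J1 g) := by
  obtain ⟨hc, ht, hcl, hci⟩ := p.test_cpt hg hΩ
  have h0 : ∀ z ∉ tsupport g, g z = 0 := fun z hz => image_eq_zero_of_notMem_tsupport hz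
  have hsub : p.e.symm '' tsupport g ⊆ p.e.symm '' Ω := image_mono hg.supp
  refine ⟨reg1_iff_at.2 fun x => ?_, ?_, ?_, ?_⟩
  · by_cases hx : x ∈ p.e.symm '' tsupport g
    · exact p.at1_J1 le_rfl (p.mem_dom_of_image hΩ (hsub hx)) hg.smooth.contDiffAt
    · refine (at1_zero (V := EuclideanSpace ℂ ι)).congr ?_
      filter_upwards [hcl.isOpen_compl.mem_nhds hx] with y hy
      exact p.J1_eq_zero h0 hy
  · intro x i
    by_cases hx : x ∈ p.e.symm '' tsupport g
    · have hx3 := p.mem_dom_of_image hΩ (hsub hx)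
      rw [J1, H306.act_smul, p.t_sec x hx3.1 hx3.2]
    · rw [p.J1_eq_zero h0 hx]
      exact H306.act_zero _
  · exact HasCompactSupport.intro hci fun x hx => p.J1_eq_zero h0 hx
  · refine (closure_minimal (fun x hx => ?_) hcl).trans hsub
    by_contra hc
    exact hx (p.J1_eq_zero h0 hc)

theorem t2F_J2 {g : C2 → ℂ} (hg : Test Ω g) (hΩ : Ω ⊆ ball (0 : C2) 3) :
    T2F L (p.e.symm '' Ω) (p.J2 g) := by
  obtain ⟨hc, ht, hcl, hci⟩ := p.test_cpt hg hΩ
  have h0 : ∀ z ∉ tsupport g, g z = 0 := fun z hz => image_eq_zero_of_notMem_tsupport hz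
  have hsub : p.e.symm '' tsupport g ⊆ p.e.symm '' Ω := image_mono hg.supp
  refine ⟨reg2_iff_at.2 fun x => ?_, ?_, ?_, ?_⟩
  · by_cases hx : x ∈ p.e.symm '' tsupport g
    · exact p.at2_J2 le_rfl (p.mem_dom_of_image hΩ (hsub hx)) hg.smooth.contDiffAt
    · refine (at2_zero (V := EuclideanSpace ℂ ι)).congr ?_
      filter_upwards [hcl.isOpen_compl.mem_nhds hx] with y hy
      exact p.J2_eq_zero h0 hy
  · intro x
    by_cases hx : x ∈ p.e.symm '' tsupport g
    · have hx3 := p.mem_dom_of_image hΩ (hsub hx)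
      rw [J2, H306.act_smul, p.t_sec x hx3.1 hx3.2]
    · rw [p.J2_eq_zero h0 hx]
      exact H306.act_zero _
  · exact HasCompactSupport.intro hci fun x hx => p.J2_eq_zero h0 hx
  · refine (closure_minimal (fun x hx => ?_) hcl).trans hsub
    by_contra hc
    exact hx (p.J2_eq_zero h0 hc)

theorem t0_J0 {g : C2 → ℂ} (hg : Test Ω g) (hΩ : Ω ⊆ ball (0 : C2) 3) :
    p.J0 g ∈ Test0 L.dual 1 ∧ tsupport (p.J0 g) ⊆ p.e.symm '' tsupport g := by
  obtain ⟨hc, ht, hcl, hci⟩ := p.test_cpt hg hΩ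
  have h0 : ∀ z ∉ tsupport g, g z = 0 := fun z hz => image_eq_zero_of_notMem_tsupport hz
  have hsub : p.e.symm '' tsupport g ⊆ p.e.symm '' Ω := image_mono hg.supp
  refine ⟨⟨reg0_iff_at.2 fun x => ?_, ?_, ?_⟩, ?_⟩
  · by_cases hx : x ∈ p.e.symm '' tsupport g
    · exact p.at0_J0 le_rfl (p.mem_dom_of_image hΩ (hsub hx)) hg.smooth.contDiffAt
    · refine (at0_zero (V := EuclideanSpace ℂ ι)).congr ?_
      filter_upwards [hcl.isOpen_compl.mem_nhds hx] with y hy
      exact p.J0_eq_zero h0 hy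
  · intro x
    by_cases hx : x ∈ p.e.symm '' tsupport g
    · have hx3 := p.mem_dom_of_image hΩ (hsub hx)
      rw [J0, H306.act_smul, p.t_sec x hx3.1 hx3.2]
    · rw [p.J0_eq_zero h0 hx]
      exact H306.act_zero _
  · exact HasCompactSupport.intro hci fun x hx => p.J0_eq_zero h0 hx
  · refine closure_minimal (fun x hx => ?_) hcl
    by_contra hc
    exact hx (p.J0_eq_zero h0 hc)

/-! ### the components of the extensions -/

theorem bp_J1 {g : C2 → Fin 2 → ℂ} {x : M} (hx : x ∈ p.dom 3) :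
    (fun i => bp (p.s x) (p.J1 g x i)) = ext1 1 p.e g x := by
  funext i
  rw [J1, bp_smul_right, p.st x hx.1 hx.2, mul_one]

theorem bp_J2 {g : C2 → ℂ} {x : M} (hx : x ∈ p.dom 3) :
    bp (p.s x) (p.J2 g x) = ext2 1 p.e g x := by
  rw [J2, bp_smul_right, p.st x hx.1 hx.2, mul_one]

theorem bp_J0 {g : C2 → ℂ} {x : M} (hx : x ∈ p.dom 3) :
    bp (p.s x) (p.J0 g x) = ext0 1 p.e g x := by
  rw [J0, bp_smul_right, p.st x hx.1 hx.2, mul_one]

theorem c1_J1 {g : C2 → Fin 2 → ℂ} (hg : ∀ z ∉ ball (0 : C2) 3, g z = 0) :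
    p.c1 (p.J1 g) = g := by
  funext z
  by_cases hz : z ∈ ball (0 : C2) 3
  · have hx := p.symm_mem_dom le_rfl hz
    have ht := p.ball_sub hz
    rw [c1, if_pos hz, loc1_pt (s' := ext1 1 p.e g) (p.bp_J1 hx), max_loc1_ext1 p.e_mem ht]
  · rw [c1, if_neg hz, hg z hz]

theorem c2_J2 {g : C2 → ℂ} (hg : ∀ z ∉ ball (0 : C2) 3, g z = 0) : p.c2 (p.J2 g) = g := by
  funext z
  by_cases hz : z ∈ ball (0 : C2) 3
  · have hx := p.symm_mem_dom le_rfl hz
    have ht := p.ball_sub hz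
    rw [c2, if_pos hz, loc2_pt (s' := ext2 1 p.e g) (p.bp_J2 hx), max_loc2_ext2 p.e_mem ht]
  · rw [c2, if_neg hz, hg z hz]

theorem c2_add (w w' : M → EuclideanSpace ℂ ι) :
    p.c2 (fun x => w x + w' x) = fun z => p.c2 w z + p.c2 w' z := by
  funext z
  by_cases hz : z ∈ ball (0 : C2) 3
  · simp only [c2, if_pos hz, loc2, bp_add_right, smul_add]
  · simp only [c2, if_neg hz, add_zero]

theorem c2_smul (c : ℂ) (w : M → EuclideanSpace ℂ ι) :
    p.c2 (fun x => c • w x) = fun z => c • p.c2 w z := by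
  funext z
  by_cases hz : z ∈ ball (0 : C2) 3
  · simp only [c2, if_pos hz, loc2, bp_smul_right, smul_eq_mul]
    ring
  · simp only [c2, if_neg hz, smul_zero]

/-- the components of a test form are test functions -/
theorem test_c1 {N : Set M} (hN : N ⊆ p.dom 3) (hΩ : ∀ x ∈ N, p.e x ∈ Ω)
    {η : M → Fin 2 → EuclideanSpace ℂ ι} (h : T1F L N η) : Test Ω (p.c1 η) := by
  have hsrc : tsupport η ⊆ p.e.source := fun x hx => (hN (h.supp hx)).1
  have hK : IsCompact (p.e '' tsupport η) :=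
    h.cpt.isCompact.image_of_continuousOn (p.e.continuousOn.mono hsrc)
  have hK3 : p.e '' tsupport η ⊆ ball (0 : C2) 3 := by
    rintro _ ⟨x, hx, rfl⟩
    exact (hN (h.supp hx)).2
  have hz0 : ∀ z ∉ p.e '' tsupport η, p.c1 η z = 0 := by
    intro z hz
    by_cases hz3 : z ∈ ball (0 : C2) 3
    · rw [c1, if_pos hz3]
      refine loc1_zero_pt ?_
      have h1 : p.e.symm z ∉ tsupport η := fun h1 =>
        hz ⟨p.e.symm z, h1, p.e.right_inv (p.ball_sub hz3)⟩
      funext i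
      rw [image_eq_zero_of_notMem_tsupport h1]
      simp
    · rw [c1, if_neg hz3]
  have hsub : tsupport (p.c1 η) ⊆ p.e '' tsupport η :=
    closure_minimal (fun z hz => by
      by_contra hc
      exact hz (hz0 z hc)) hK.isClosed
  refine ⟨?_, HasCompactSupport.intro hK hz0, hsub.trans ?_⟩
  · rw [contDiff_iff_contDiffAt]
    intro z
    by_cases hz : z ∈ p.e '' tsupport η
    · have hz3 := hK3 hz
      have hx := p.symm_mem_dom le_rfl hz3
      have hz' := p.e.right_inv (p.ball_sub hz3)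
      have h1 : At1 ∞ (0 + 1) (fun x i => bp (p.s x) (η x i)) (p.e.symm z) :=
        At1.bilin (B := bpL (ι := ι)) (p.s_reg _ hx.1 hx.2) (h.reg.at _)
      have h2 := At1.max h1 p.e_mem hx.1
      rw [hz', zero_add] at h2
      refine h2.congr_of_eventuallyEq ?_
      filter_upwards [isOpen_ball.mem_nhds hz3] with y hy
      rw [c1, if_pos hy]
    · refine contDiffAt_const.congr_of_eventuallyEq (f := fun _ => (0 : Fin 2 → ℂ)) ?_
      filter_upwards [hK.isClosed.isOpen_compl.mem_nhds hz] with y hy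
      exact hz0 y hy
  · rintro _ ⟨x, hx, rfl⟩
    exact hΩ x (h.supp hx)

theorem test_c2 {N : Set M} (hN : N ⊆ p.dom 3) (hΩ : ∀ x ∈ N, p.e x ∈ Ω)
    {w : M → EuclideanSpace ℂ ι} (h : T2F L N w) : Test Ω (p.c2 w) := by
  have hsrc : tsupport w ⊆ p.e.source := fun x hx => (hN (h.supp hx)).1
  have hK : IsCompact (p.e '' tsupport w) :=
    h.cpt.isCompact.image_of_continuousOn (p.e.continuousOn.mono hsrc)
  have hK3 : p.e '' tsupport w ⊆ ball (0 : C2) 3 := by
    rintro _ ⟨x, hx, rfl⟩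
    exact (hN (h.supp hx)).2
  have hz0 : ∀ z ∉ p.e '' tsupport w, p.c2 w z = 0 := by
    intro z hz
    by_cases hz3 : z ∈ ball (0 : C2) 3
    · rw [c2, if_pos hz3]
      refine loc2_zero_pt ?_
      have h1 : p.e.symm z ∉ tsupport w := fun h1 =>
        hz ⟨p.e.symm z, h1, p.e.right_inv (p.ball_sub hz3)⟩
      rw [image_eq_zero_of_notMem_tsupport h1]
      simp
    · rw [c2, if_neg hz3]
  have hsub : tsupport (p.c2 w) ⊆ p.e '' tsupport w :=
    closure_minimal (fun z hz => by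
      by_contra hc
      exact hz (hz0 z hc)) hK.isClosed
  refine ⟨?_, HasCompactSupport.intro hK hz0, hsub.trans ?_⟩
  · rw [contDiff_iff_contDiffAt]
    intro z
    by_cases hz : z ∈ p.e '' tsupport w
    · have hz3 := hK3 hz
      have hx := p.symm_mem_dom le_rfl hz3
      have hz' := p.e.right_inv (p.ball_sub hz3)
      have h1 : At2 ∞ (0 + 1) (fun x => bp (p.s x) (w x)) (p.e.symm z) :=
        At2.bilin (B := bpL (ι := ι)) (p.s_reg _ hx.1 hx.2) (h.reg.at _)
      have h2 := At2.max h1 p.e_mem hx.1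
      rw [hz', zero_add] at h2
      refine h2.congr_of_eventuallyEq ?_
      filter_upwards [isOpen_ball.mem_nhds hz3] with y hy
      rw [c2, if_pos hy]
    · refine contDiffAt_const.congr_of_eventuallyEq (f := fun _ => (0 : ℂ)) ?_
      filter_upwards [hK.isClosed.isOpen_compl.mem_nhds hz] with y hy
      exact hz0 y hy
  · rintro _ ⟨x, hx, rfl⟩
    exact hΩ x (h.supp hx)

/-- a test form is the extension of its components -/
theorem J1_c1 {η : M → Fin 2 → EuclideanSpace ℂ ι} (h : T1F L (p.dom 3) η) :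
    p.J1 (p.c1 η) = η := by
  funext x i
  by_cases hx : x ∈ p.dom 3
  · have h1 : ext1 1 p.e (p.c1 η) x = fun i => bp (p.s x) (η x i) := by
      refine max_loc1_inj (κ := 1) (a' := fun x i => bp (p.s x) (η x i)) p.e_mem hx.1 ?_
      rw [max_loc1_ext1 p.e_mem (p.e.map_source hx.1), c1,
        if_pos (show p.e x ∈ ball (0 : C2) 3 from hx.2)]
    rw [J1, h1]
    exact (p.eq_smul_t hx (h.sec x i)).symm
  · have h1 : η x = 0 := image_eq_zero_of_notMem_tsupport fun h' => hx (h.supp h')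
    have h2 : p.J1 (p.c1 η) x = 0 := by
      refine p.J1_eq_zero (K := ball (0 : C2) 3) (fun z hz => by rw [c1, if_neg hz]) fun h' => hx ?_
      exact p.mem_dom_of_image subset_rfl h'
    rw [h1, h2]

theorem J2_c2 {w : M → EuclideanSpace ℂ ι} (h : T2F L (p.dom 3) w) : p.J2 (p.c2 w) = w := by
  funext x
  by_cases hx : x ∈ p.dom 3
  · have h1 : ext2 1 p.e (p.c2 w) x = bp (p.s x) (w x) := by
      refine max_loc2_inj (κ := 1) (b' := fun x => bp (p.s x) (w x)) p.e_mem hx.1 ?_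
      rw [max_loc2_ext2 p.e_mem (p.e.map_source hx.1), c2,
        if_pos (show p.e x ∈ ball (0 : C2) 3 from hx.2)]
    rw [J2, h1]
    exact (p.eq_smul_t hx (h.sec x)).symm
  · have h1 : w x = 0 := image_eq_zero_of_notMem_tsupport fun h' => hx (h.supp h')
    have h2 : p.J2 (p.c2 w) x = 0 := by
      refine p.J2_eq_zero (K := ball (0 : C2) 3) (fun z hz => by rw [c2, if_neg hz]) fun h' => hx ?_
      exact p.mem_dom_of_image subset_rfl h'
    rw [h1, h2]

end test

end Patch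

end Vale.Agent.P267.H869
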