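import Vale.Agent.P267.H869.PatchLF

/-!
# P267 / XA-SMOOTH (helper869): the local theorems for a functional on forms, in patches

* `Patch.U_add`, `U_smul`, `U_bound`: the functional `p.U A` of degree two;
* `Patch.exists_a`: the local representation `A η = U (∂̄η) + ∫ v ∧ η`;
* `Patch.exists_v`: on the intersection of two patches `U p - U q` is given by a smooth section.
-/

set_option linter.unusedVariables false
set_option linter.unusedSectionVars false

open scoped Manifold ContDiff ComplexConjugate Matrix ComplexOrder Topology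
open MeasureTheory Set Filter Metric

noncomputable section

namespace Vale.Agent.P267.H869

open FL
open Vale.Agent.P267.H306 (bp pr bpL bpL_apply Test0 Test1 D0 bp_add_left bp_add_right bp_smul_left
  bp_smul_right bp_zero_left bp_zero_right norm_bp_le)
open Vale.Agent.P267.H181 (ext0 ext1 ext2)

variable {M : Type} [TopologicalSpace M] [ChartedSpace C2 M] [IsManifold 𝓘(ℂ, C2) ω M]
variable [T2Space M]
variable {ι : Type} [Fintype ι] [DecidableEq ι]

/-- the constant of `exists_alpha` -/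
def cA : ℝ := Classical.choose exists_alpha

/-- the constant of `exists_Uf_bound` -/
def cU : ℝ := Classical.choose exists_Uf_bound

/-- the constant of `exists_weyl` -/
def cW (δ : ℝ) (hδ : 0 < δ) : ℝ := Classical.choose (exists_weyl hδ)

theorem cA_nonneg : 0 ≤ cA := (Classical.choose_spec exists_alpha).1
theorem cU_nonneg : 0 ≤ cU := (Classical.choose_spec exists_Uf_bound).1
theorem cW_nonneg (δ : ℝ) (hδ : 0 < δ) : 0 ≤ cW δ hδ := (Classical.choose_spec (exists_weyl hδ)).1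

namespace Patch

variable {L : LB M ι} {a : M → Fin 2 → ℂ} (p : Patch L a) (A : Test1 L.dual 1 →ₗ[ℂ] ℂ)

theorem U_bound {W : ℝ} (hW : 0 ≤ W) (hA : p.Bd A W) {w : M → EuclideanSpace ℂ ι}
    (h : T2F L (p.dom 3) w) {B : ℝ} (hB : ∀ z ∈ ball (0 : C2) 3, ‖p.c2 w z‖ ≤ B) :
    ‖p.U A w‖ ≤ cU * W * B := by
  have hB0 : 0 ≤ B := (norm_nonneg _).trans (hB 0 (mem_ball_self (by norm_num)))
  have ht := p.test_c2 (Ω := ball (0 : C2) 3) subset_rfl (fun x hx => hx.2) h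
  have h1 := ((Classical.choose_spec exists_Uf_bound).2 (p.Lam A) W (p.lf_Lam A hA) hW).bound _ ht B
    fun z => by
      by_cases hz : z ∈ ball (0 : C2) 3
      · exact hB z hz
      · rw [ht.eq_zero hz, norm_zero]; exact hB0
  exact h1

/-- **local representation** -/
theorem exists_a [SigmaCompactSpace M] (ha : L.IsHol a) (han : Reg1 ∞ 0 (ng a)) {W : ℝ}
    (hW : 0 ≤ W) (hA : p.Bd A W) {r : M → EuclideanSpace ℂ ι} (hr : Reg2 ∞ 0 r) (hrs : L.Sec r)
    (hAr : ∀ φ : Test0 L.dual 1, A (D0 L.dual han 1 φ) = intX (pr r φ)) :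
    ∃ v : M → Fin 2 → EuclideanSpace ℂ ι,
      (∀ x ∈ p.dom (5 / 2), At1 ∞ 0 v x) ∧ L.Sec1 v ∧
      (∀ x ∈ p.dom (5 / 2), L.db1 a 0 v x = r x) ∧
      (∀ η, T1F L (p.dom (5 / 2)) η →
        Af A η = p.U A (L.dual.db1 (ng a) 1 η) + intX (wdg v η)) ∧
      ∀ R, (∀ z ∈ ball (0 : C2) 3, ‖p.d2 r z‖ ≤ R) → ∀ z ∈ closedBall (0 : C2) 2,
        ‖p.d1 v z‖ ≤ cA * (W + R) := by
  classical
  have h52 : (5 / 2 : ℝ) ≤ 3 := by norm_num
  -- the right hand side in the patch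
  set rr : C2 → ℂ := fun z => 4 * p.d2 r z with hrr
  have hd2 : ContDiffOn ℝ ∞ (p.d2 r) (ball 0 3) := by
    intro z hz
    have hx := p.symm_mem_dom le_rfl hz
    have h1 : At2 ∞ (0 + 0) (fun x => bp (r x) (p.t x)) (p.e.symm z) :=
      At2.bilin' (B := bpL (ι := ι)) (hr.at _) (p.t_reg _ hx.1 hx.2)
    have h2 := At2.max h1 p.e_mem hx.1
    rw [p.e.right_inv (p.ball_sub hz), zero_add] at h2
    exact h2.contDiffWithinAt
  have hrs' : ContDiffOn ℝ ∞ rr (ball 0 3) := contDiffOn_const.mul hd2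
  have hΛr : ∀ b, Test (ball (0 : C2) 3) b → p.Lam A (dbV b) = ∫ z, rr z * b z := by
    intro b hb
    have h0 := (p.t0_J0 hb subset_rfl).1
    have h1 : p.Lam A (dbV b) = A (D0 L.dual han 1 ⟨p.J0 b, h0⟩) := by
      rw [Lam, ← p.db0_J0 han hb]
      have h2 : L.dual.db0 (ng a) 1 (p.J0 b) ∈ Test1 L.dual 1 :=
        (D0 L.dual han 1 ⟨p.J0 b, h0⟩).2
      rw [Af_eq A h2]
      rfl
    rw [h1, hAr]
    change intX (pr r (p.J0 b)) = _
    rw [p.intX_pr_J0 hr hb, ← integral_const_mul]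
    refine integral_congr_ae (Eventually.of_forall fun z => ?_)
    simp only [hrr]
    ring
  obtain ⟨α, hα, hα1, hα2, hα3, -⟩ := (Classical.choose_spec exists_alpha).2 (p.Lam A) W rr
    (p.lf_Lam A hA) hW hrs' hΛr
  set α' : C2 → Fin 2 → ℂ := fun z => (1 / 4 : ℂ) • α z with hα'
  have hα's : ∀ z ∈ ball (0 : C2) (5 / 2), ContDiffAt ℝ ∞ α' z := fun z hz =>
    (hα.contDiffAt (isOpen_ball.mem_nhds hz)).const_smul (1 / 4 : ℂ)
  set v : M → Fin 2 → EuclideanSpace ℂ ι := fun x i =>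
    if x ∈ p.dom (5 / 2) then ext1 0 p.e α' x i • p.s x else 0 with hv
  have hvx : ∀ x ∈ p.dom (5 / 2), v x = fun i => ext1 0 p.e α' x i • p.s x := fun x hx => by
    funext i
    simp only [hv, if_pos hx]
  have hvev : ∀ x ∈ p.dom (5 / 2), v =ᶠ[𝓝 x] fun x i => ext1 0 p.e α' x i • p.s x := fun x hx => by
    filter_upwards [(p.isOpen_dom (5 / 2)).mem_nhds hx] with y hy
    exact hvx y hy
  have hd1 : ∀ z ∈ ball (0 : C2) (5 / 2), p.d1 v z = α' z := by
    intro z hz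
    have hz3 : z ∈ p.e.target := p.ball_sub (ball_subset_ball h52 hz)
    have hx := p.symm_mem_dom h52 hz
    have hx3 := p.dom_mono h52 hx
    rw [d1, loc1_pt (s' := ext1 0 p.e α'), max_loc1_ext1 p.e_mem hz3]
    funext i
    rw [hvx _ hx, bp_smul_left, p.st _ hx3.1 hx3.2, mul_one]
  refine ⟨v, ?_, ?_, ?_, ?_, ?_⟩
  · intro x hx
    have hx3 := p.dom_mono h52 hx
    have h1 : At1 ∞ 0 (ext1 0 p.e α') x := max_at1_ext1 p.e_mem hx.1 (hα's _ hx.2)
    exact (h1.smul_right (p.s_reg x hx3.1 hx3.2)).congr (hvev x hx)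
  · intro x i
    by_cases hx : x ∈ p.dom (5 / 2)
    · have hx3 := p.dom_mono h52 hx
      rw [hvx x hx]
      change LB.act (L.P x) (ext1 0 p.e α' x i • p.s x) = ext1 0 p.e α' x i • p.s x
      rw [H306.act_smul, p.s_sec x hx3.1 hx3.2]
    · simp only [hv, if_neg hx]
      exact H306.act_zero _
  · intro x hx
    have hx3 := p.dom_mono h52 hx
    have hf : At1 1 0 (ext1 0 p.e α') x :=
      max_at1_ext1 p.e_mem hx.1 ((hα's _ hx.2).of_le (by simp))
    have hs : At0 1 0 p.s x := (p.s_reg x hx3.1 hx3.2).of_le (by simp)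
    have h1 := H181.db1_smul_right (L := L) (a := a) (κ := 0) hf hs (p.s_sec x hx3.1 hx3.2)
    rw [H181.db1_congr (hvev x hx), h1, p.s_hol x hx3.1 hx3.2,
      dbar1_ext1 p.e_mem hx.1 ((hα's _ hx.2).differentiableAt (by simp))]
    simp only [Pi.zero_apply, smul_zero, sub_zero]
    rw [p.eq_smul_s hx3 (hrs x)]
    congr 1
    refine max_loc2_inj (κ := 0) (b' := fun x => bp (r x) (p.t x)) p.e_mem hx.1 ?_
    rw [max_loc2_ext2 p.e_mem (p.e.map_source hx.1)]
    have h2 := hα2 _ hx.2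
    have h3 : dzb 0 (fun y => α' y 1) (p.e x) - dzb 1 (fun y => α' y 0) (p.e x) =
        (1 / 4 : ℂ) * dbF α (p.e x) := by
      have h4 : ∀ i, DifferentiableAt ℝ (fun y => α y i) (p.e x) := fun i =>
        (contDiffAt_pi.1 (hα.contDiffAt (isOpen_ball.mem_nhds hx.2)) i).differentiableAt (by simp)
      have h5 : ∀ i j, dzb j (fun y => α' y i) (p.e x) = (1 / 4 : ℂ) • dzb j (fun y => α y i) (p.e x) :=
        fun i j => dzb_const_smul (1 / 4 : ℂ) (h4 i) j
      rw [h5, h5, dzb_eq_db, dzb_eq_db, dbF, smul_eq_mul, smul_eq_mul]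
      ring
    rw [h3, h2, hrr]
    change 1 / 4 * (4 * p.d2 r (p.e x)) = p.d2 r (p.e x)
    ring
  · intro η hη
    have h3 := hη.mono (p.dom_mono h52)
    have hg : Test (ball (0 : C2) (5 / 2)) (p.c1 η) :=
      p.test_c1 (p.dom_mono h52) (fun x hx => hx.2) hη
    have hg3 : Test (ball (0 : C2) 3) (p.c1 η) := hg.mono (ball_subset_ball h52)
    have hJ := p.J1_c1 h3
    have h1 : Af A η = p.Lam A (p.c1 η) := by rw [Lam, hJ]
    have h2 : p.U A (L.dual.db1 (ng a) 1 η) = Uf (p.Lam A) (dbF (p.c1 η)) := by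
      conv_lhs => rw [← hJ]
      rw [p.db1_J1 hg3, U, p.c2_J2 fun z hz => hg3.dbF.eq_zero hz]
    rw [h1, h2, hα1 _ hg, p.intX_wdg (p.dom_mono h52) (v := v) (fun x hx => ?_) hη]
    · congr 1
      rw [← integral_const_mul]
      refine integral_congr_ae (Eventually.of_forall fun z => ?_)
      by_cases hz : z ∈ ball (0 : C2) (5 / 2)
      · simp only [hd1 z hz, hα', Pi.smul_apply, smul_eq_mul]
        ring
      · simp only [hg.eq_zero hz, Pi.zero_apply, mul_zero, sub_zero]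
    · have hx3 := p.dom_mono h52 hx
      have h1 : At1 ∞ 0 (ext1 0 p.e α') x := max_at1_ext1 p.e_mem hx.1 (hα's _ hx.2)
      exact (h1.smul_right (p.s_reg x hx3.1 hx3.2)).congr (hvev x hx)
  · intro R hR z hz
    have hR0 : 0 ≤ R := (norm_nonneg _).trans (hR 0 (mem_ball_self (by norm_num)))
    have hz' : z ∈ ball (0 : C2) (5 / 2) := closedBall_subset_ball (by norm_num) hz
    rw [hd1 z hz']
    have h1 := hα3 (4 * R) (fun z hz => by
      rw [hrr]
      simp only [norm_mul]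
      have := hR z hz
      norm_num
      exact this) z hz
    have h2 : ‖α' z‖ = 1 / 4 * ‖α z‖ := by
      rw [hα', norm_smul]
      norm_num
    rw [h2]
    have h3 : cA * (W + 4 * R) ≤ 4 * (cA * (W + R)) := by
      have := mul_nonneg cA_nonneg hW
      nlinarith
    have h4 : ‖α z‖ ≤ cA * (W + 4 * R) := h1
    linarith

omit [T2Space M] in
/-- components of a `K ⊗ L.dual`-valued `(0,2)`-form in two patches -/
theorem norm_c2_J2_le (q : Patch L a) {N : Set M} (hNp : N ⊆ p.dom 3) (hNq : N ⊆ q.dom 3) {B : ℝ}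
    (hB : 0 ≤ B) (htr : p.TrB q N B) {g : C2 → ℂ} (hg : ∀ x ∉ N, q.J2 g x = 0) {b : ℝ}
    (hb : ∀ z, ‖g z‖ ≤ b) {z : C2} (hz : z ∈ ball (0 : C2) 3) :
    ‖p.c2 (q.J2 g) z‖ ≤ 4 * B ^ 5 * b := by
  have hb0 : 0 ≤ b := (norm_nonneg _).trans (hb 0)
  set x := p.e.symm z with hx
  by_cases hxN : x ∈ N
  · have hxp := hNp hxN
    have hxq := hNq hxN
    have hz' : p.e x = z := p.e.right_inv (p.ball_sub hz)
    rw [c2, if_pos hz, ← hz', max_loc2_change p.e_mem q.e_mem hxp.1 hxq.1]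
    have h1 : loc2 1 q.e (fun x => bp (p.s x) (q.J2 g x)) (q.e x) =
        bp (p.s x) (q.t x) * g (q.e x) := by
      have h2 : loc2 1 q.e (ext2 1 q.e g) (q.e x) = g (q.e x) :=
        max_loc2_ext2 q.e_mem (q.e.map_source hxq.1)
      rw [← h2, loc2_source hxq.1, loc2_source hxq.1]
      simp only [J2, bp_smul_right, smul_eq_mul]
      ring
    rw [h1]
    have hd : ‖(jacM p.e q.e x).det‖ ≤ 2 * B ^ 2 := by
      rw [Matrix.det_fin_two]
      refine (norm_sub_le _ _).trans ?_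
      rw [norm_mul, norm_mul]
      have e := htr.pq x hxN
      calc _ ≤ B * B + B * B := add_le_add
            (mul_le_mul (e 0 0) (e 1 1) (norm_nonneg _) hB)
            (mul_le_mul (e 0 1) (e 1 0) (norm_nonneg _) hB)
        _ = _ := by ring
    rw [zpow_one, norm_smul, norm_smul, norm_mul, RCLike.norm_conj]
    calc ‖(jacM p.e q.e x).det‖ * (‖(jacM p.e q.e x).det‖ * (‖bp (p.s x) (q.t x)‖ * ‖g (q.e x)‖))
        ≤ (2 * B ^ 2) * ((2 * B ^ 2) * (B * b)) := by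
          have h3 := htr.fr x hxN
          gcongr
          exact hb _
      _ = _ := by ring
  · have h1 : p.c2 (q.J2 g) z = 0 := by
      rw [c2, if_pos hz]
      refine loc2_zero_pt ?_
      rw [← hx, hg x hxN, bp_zero_right]
    rw [h1, norm_zero]
    positivity

omit [T2Space M] in
/-- components of an `L`-valued `(0,1)`-form in two patches -/
theorem norm_d1_le (q : Patch L a) {x : M} (hxp : x ∈ p.dom 3) (hxq : x ∈ q.dom 3) {B V : ℝ}
    (hB : 0 ≤ B) (htr : p.TrB q {x} B) {v : M → Fin 2 → EuclideanSpace ℂ ι} (hvs : L.Sec1 v)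
    (hV : ‖p.d1 v (p.e x)‖ ≤ V) : ‖q.d1 v (q.e x)‖ ≤ 2 * B ^ 2 * V := by
  have hV0 : 0 ≤ V := (norm_nonneg _).trans hV
  rw [pi_norm_le_iff_of_nonneg (by positivity)]
  intro i
  rw [d1, max_loc1_change q.e_mem p.e_mem hxq.1 hxp.1]
  have h1 : ∀ k, loc1 0 p.e (fun x i => bp (v x i) (q.t x)) (p.e x) k =
      bp (p.s x) (q.t x) * p.d1 v (p.e x) k := by
    intro k
    have h2 : ∀ k, bp (v x k) (q.t x) = bp (p.s x) (q.t x) * bp (v x k) (p.t x) := by
      intro k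
      conv_lhs => rw [p.eq_smul_s hxp (hvs x k)]
      rw [bp_smul_left]
      ring
    rw [d1, loc1_source hxp.1, loc1_source hxp.1]
    simp only [h2, smul_eq_mul, Fin.sum_univ_two]
    ring
  rw [zpow_zero, one_smul, Fin.sum_univ_two, h1, h1]
  have h3 : ∀ k, ‖conj (jacM q.e p.e x k i) • (bp (p.s x) (q.t x) * p.d1 v (p.e x) k)‖ ≤
      B * (B * V) := by
    intro k
    rw [norm_smul, norm_mul, RCLike.norm_conj]
    have h4 := htr.qp x rfl k i
    have h5 := htr.fr x rfl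
    have h6 : ‖p.d1 v (p.e x) k‖ ≤ V := (norm_le_pi_norm _ k).trans hV
    gcongr
  calc _ ≤ B * (B * V) + B * (B * V) := (norm_add_le _ _).trans (add_le_add (h3 0) (h3 1))
    _ = _ := by ring

theorem J2_add (f g : C2 → ℂ) :
    p.J2 (fun z => f z + g z) = fun x => p.J2 f x + p.J2 g x := by
  funext x
  rw [J2, J2, J2, ← add_smul]
  congr 1
  by_cases hx : x ∈ p.e.source
  · simp only [ext2, if_pos hx, smul_eq_mul]
    ring
  · simp only [ext2, if_neg hx, add_zero]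

theorem J2_smul (c : ℂ) (f : C2 → ℂ) :
    p.J2 (fun z => c • f z) = fun x => c • p.J2 f x := by
  funext x
  rw [J2, J2, smul_smul]
  congr 1
  by_cases hx : x ∈ p.e.source
  · simp only [ext2, if_pos hx, smul_eq_mul]
    ring
  · simp only [ext2, if_neg hx, mul_zero]

/-- **comparison of two patches**: `v, v'` are the forms of `exists_a` of the patches `p`, `q` -/
theorem exists_v [SigmaCompactSpace M] (ha : L.IsHol a) (q : Patch L a) {W W' : ℝ} (hW : 0 ≤ W)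
    (hA : p.Bd A W) (hW' : 0 ≤ W') (hA' : q.Bd A W') {v v' : M → Fin 2 → EuclideanSpace ℂ ι}
    (hv : ∀ x ∈ p.dom (5 / 2), At1 ∞ 0 v x) (hvs : L.Sec1 v)
    (hvA : ∀ η, T1F L (p.dom (5 / 2)) η →
        Af A η = p.U A (L.dual.db1 (ng a) 1 η) + intX (wdg v η))
    (hv' : ∀ x ∈ q.dom (5 / 2), At1 ∞ 0 v' x) (hvs' : L.Sec1 v')
    (hvA' : ∀ η, T1F L (q.dom (5 / 2)) η →
        Af A η = q.U A (L.dual.db1 (ng a) 1 η) + intX (wdg v' η))
    {z₀ : C2} {δ B V : ℝ} (hδ : 0 < δ) (hB : 0 ≤ B) (hq : ball z₀ δ ⊆ ball (0 : C2) (5 / 2))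
    (hp : q.e.symm '' ball z₀ δ ⊆ p.dom (5 / 2)) (htr : p.TrB q (q.e.symm '' ball z₀ δ) B)
    (hV : ∀ x ∈ q.e.symm '' ball z₀ δ, ‖p.d1 v (p.e x)‖ ≤ V)
    (hV' : ∀ x ∈ q.e.symm '' ball z₀ δ, ‖q.d1 v' (q.e x)‖ ≤ V) :
    ∃ u : M → EuclideanSpace ℂ ι,
      (∀ x ∈ q.e.symm '' ball z₀ (δ / 2), At0 ∞ 0 u x) ∧ L.Sec u ∧
      (∀ w, T2F L (q.e.symm '' ball z₀ (δ / 2)) w → p.U A w - q.U A w = intX (pr u w)) ∧
      (∀ x ∈ q.e.symm '' ball z₀ (δ / 2), ∀ i, L.db0 a 0 u x i = v x i - v' x i) ∧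
      ∀ z ∈ closedBall z₀ (δ / 4), ‖q.d0 u z‖ ≤
        cW δ hδ * (cU * (4 * B ^ 5 * W + W') + (2 * B ^ 2 + 1) * V) := by
  classical
  have h52 : (5 / 2 : ℝ) ≤ 3 := by norm_num
  set Ω : Set C2 := ball z₀ δ with hΩ
  set N : Set M := q.e.symm '' Ω with hN
  have hΩ3 : Ω ⊆ ball (0 : C2) 3 := hq.trans (ball_subset_ball h52)
  have hNq : N ⊆ q.dom (5 / 2) := by
    rintro _ ⟨z, hz, rfl⟩
    exact q.symm_mem_dom h52 (hq hz)
  have hNq3 : N ⊆ q.dom 3 := hNq.trans (q.dom_mono h52)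
  have hNp3 : N ⊆ p.dom 3 := hp.trans (p.dom_mono h52)
  have hV0 : 0 ≤ V := (norm_nonneg _).trans (hV _ ⟨z₀, mem_ball_self hδ, rfl⟩)
  -- the functional
  set F : (C2 → ℂ) → ℂ := fun g => p.U A (q.J2 g) - q.U A (q.J2 g) with hF
  have hT : ∀ g, Test Ω g → T2F L N (q.J2 g) := fun g hg => q.t2F_J2 hg hΩ3
  have hJ0 : ∀ g, Test Ω g → ∀ x ∉ N, q.J2 g x = 0 := fun g hg x hx =>
    image_eq_zero_of_notMem_tsupport fun h => hx ((hT g hg).supp h)
  have hLF : LF ℂ Ω (cU * (4 * B ^ 5 * W + W')) F := by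
    refine ⟨fun f g hf hg => ?_, fun c f hf => ?_, fun f hf b hb => ?_⟩
    · simp only [hF, q.J2_add]
      rw [p.U_add A ((hT f hf).mono hNp3) ((hT g hg).mono hNp3),
        q.U_add A ((hT f hf).mono hNq3) ((hT g hg).mono hNq3)]
      ring
    · simp only [hF, q.J2_smul]
      rw [p.U_smul A c ((hT f hf).mono hNp3), q.U_smul A c ((hT f hf).mono hNq3)]
      ring
    · have hb0 : 0 ≤ b := (norm_nonneg _).trans (hb 0)
      have h1 : ‖p.U A (q.J2 f)‖ ≤ cU * W * (4 * B ^ 5 * b) :=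
        p.U_bound A hW hA ((hT f hf).mono hNp3) fun z hz =>
          p.norm_c2_J2_le q hNp3 hNq3 hB htr (hJ0 f hf) hb hz
      have h2 : ‖q.U A (q.J2 f)‖ ≤ cU * W' * b :=
        q.U_bound A hW' hA' ((hT f hf).mono hNq3) fun z hz => by
          rw [q.c2_J2 fun z hz => (hf.mono hΩ3).eq_zero hz]
          exact hb z
      calc ‖F f‖ ≤ _ := norm_sub_le _ _
        _ ≤ cU * W * (4 * B ^ 5 * b) + cU * W' * b := add_le_add h1 h2
        _ = _ := by ring
  -- the form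
  have hd1s : ∀ {y : M → Fin 2 → EuclideanSpace ℂ ι}, (∀ x ∈ N, At1 ∞ 0 y x) →
      ContDiffOn ℝ ∞ (q.d1 y) Ω := by
    intro y hy z hz
    have hzq := q.symm_mem_dom le_rfl (hΩ3 hz)
    have h1 : At1 ∞ (0 + 0) (fun x i => bp (y x i) (q.t x)) (q.e.symm z) :=
      At1.bilin' (B := bpL (ι := ι)) (hy _ ⟨z, hz, rfl⟩) (q.t_reg _ hzq.1 hzq.2)
    have h2 := At1.max h1 q.e_mem hzq.1
    rw [q.e.right_inv (q.ball_sub (hΩ3 hz)), zero_add] at h2
    exact h2.contDiffWithinAt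
  have hvN : ∀ x ∈ N, At1 ∞ 0 v x := fun x hx => hv x (hp hx)
  have hv'N : ∀ x ∈ N, At1 ∞ 0 v' x := fun x hx => hv' x (hNq hx)
  set β : C2 → Fin 2 → ℂ := fun z => (4 : ℂ) • (q.d1 v' z - q.d1 v z) with hβ
  have hβs : ContDiffOn ℝ ∞ β Ω := ((hd1s hv'N).sub (hd1s hvN)).const_smul (4 : ℂ)
  have hFβ : ∀ g, Test Ω g → F (dbF g) = ∫ z, (β z 0 * g z 1 - β z 1 * g z 0) := by
    intro g hg
    have hg3 := hg.mono hΩ3
    have hTg : T1F L N (q.J1 g) := q.t1F_J1 hg hΩ3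
    have h1 := hvA _ (hTg.mono hp)
    have h2 := hvA' _ (hTg.mono hNq)
    rw [q.db1_J1 hg3] at h1 h2
    have h3 : F (dbF g) = intX (wdg v' (q.J1 g)) - intX (wdg v (q.J1 g)) := by
      simp only [hF]
      linear_combination h2 - h1
    rw [h3, q.intX_wdg hNq3 hv'N hTg, q.intX_wdg hNq3 hvN hTg, ← mul_sub,
      q.c1_J1 fun z hz => hg3.eq_zero hz]
    have hint : ∀ {y : M → Fin 2 → EuclideanSpace ℂ ι}, (∀ x ∈ N, At1 ∞ 0 y x) →
        Integrable fun z => q.d1 y z 0 * g z 1 - q.d1 y z 1 * g z 0 := by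
      intro y hy
      have h4 : ∀ i j, Test Ω fun z => g z i * q.d1 y z j := fun i j =>
        Test.mul_contDiffOn isOpen_ball (Test.pi.1 hg i) (contDiffOn_pi.1 (hd1s hy) j)
      have h5 := (h4 1 0).integrable.sub (h4 0 1).integrable
      refine h5.congr (Eventually.of_forall fun z => ?_)
      simp only [Pi.sub_apply]
      ring
    rw [← integral_sub (hint hv'N) (hint hvN), ← integral_const_mul]
    refine integral_congr_ae (Eventually.of_forall fun z => ?_)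
    simp only [hβ, Pi.smul_apply, Pi.sub_apply, smul_eq_mul]
    ring
  have hcU := cU_nonneg
  obtain ⟨u₀, hu1, hu2, hu3, hu4, -⟩ := (Classical.choose_spec (exists_weyl hδ)).2 z₀ F
    (cU * (4 * B ^ 5 * W + W')) β hLF (by positivity) hβs hFβ
  set Ω₂ : Set C2 := ball z₀ (δ / 2) with hΩ₂
  have hΩ₂s : Ω₂ ⊆ Ω := ball_subset_ball (by linarith)
  set N₂ : Set M := q.e.symm '' Ω₂ with hN₂
  have hN₂s : N₂ ⊆ N := image_mono hΩ₂s
  have hN₂o : IsOpen N₂ := q.e.isOpen_image_symm_of_subset_target isOpen_ball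
    ((hΩ₂s.trans hΩ3).trans q.ball_sub)
  have heN₂ : ∀ x ∈ N₂, q.e x ∈ Ω₂ := by
    rintro _ ⟨z, hz, rfl⟩
    rwa [q.e.right_inv (q.ball_sub (hΩ3 (hΩ₂s hz)))]
  set u₁ : C2 → ℂ := fun z => (1 / 4 : ℂ) • u₀ z with hu₁
  have hu₁s : ∀ z ∈ Ω₂, ContDiffAt ℝ ∞ u₁ z := fun z hz =>
    (hu1.contDiffAt (isOpen_ball.mem_nhds hz)).const_smul (1 / 4 : ℂ)
  set u : M → EuclideanSpace ℂ ι := fun x =>
    if x ∈ N₂ then ext0 0 q.e u₁ x • q.s x else 0 with hu
  have hux : ∀ x ∈ N₂, u x = ext0 0 q.e u₁ x • q.s x := fun x hx => by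
    simp only [hu, if_pos hx]
  have huev : ∀ x ∈ N₂, u =ᶠ[𝓝 x] fun x => ext0 0 q.e u₁ x • q.s x := fun x hx => by
    filter_upwards [hN₂o.mem_nhds hx] with y hy
    exact hux y hy
  have hd0 : ∀ z ∈ Ω₂, q.d0 u z = u₁ z := by
    intro z hz
    have hz3 := hΩ3 (hΩ₂s hz)
    have hx3 := q.symm_mem_dom le_rfl hz3
    rw [d0, loc0_pt (s' := ext0 0 q.e u₁), max_loc0_ext0 q.e_mem (q.ball_sub hz3)]
    rw [hux _ ⟨z, hz, rfl⟩, bp_smul_left, q.st _ hx3.1 hx3.2, mul_one]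
  have huat : ∀ x ∈ N₂, At0 ∞ 0 u x := by
    intro x hx
    have hx3 := hNq3 (hN₂s hx)
    have h1 : At0 ∞ 0 (ext0 0 q.e u₁) x := max_at0_ext0 q.e_mem hx3.1 (hu₁s _ (heN₂ x hx))
    exact (h1.smul (q.s_reg x hx3.1 hx3.2)).congr (huev x hx)
  refine ⟨u, huat, ?_, ?_, ?_, ?_⟩
  · intro x
    by_cases hx : x ∈ N₂
    · have hx3 := hNq3 (hN₂s hx)
      rw [hux x hx, H306.act_smul, q.s_sec x hx3.1 hx3.2]
    · simp only [hu, if_neg hx]
      exact H306.act_zero _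
  · intro w hw
    have hw3 : T2F L (q.dom 3) w := hw.mono (hN₂s.trans hNq3)
    have hg : Test Ω₂ (q.c2 w) := q.test_c2 (hN₂s.trans hNq3) heN₂ hw
    have h1 : p.U A w - q.U A w = F (q.c2 w) := by
      simp only [hF, q.J2_c2 hw3]
    rw [h1, hu2 _ hg, q.intX_pr_sec (hN₂s.trans hNq3) huat hw, ← integral_const_mul]
    refine integral_congr_ae (Eventually.of_forall fun z => ?_)
    by_cases hz : z ∈ Ω₂
    · simp only [hd0 z hz, hu₁, smul_eq_mul]
      ring
    · simp only [hg.eq_zero hz, mul_zero]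
  · intro x hx i
    have hx3 := hNq3 (hN₂s hx)
    have hxe := heN₂ x hx
    have hf : At0 1 0 (ext0 0 q.e u₁) x :=
      max_at0_ext0 q.e_mem hx3.1 ((hu₁s _ hxe).of_le (by simp))
    have hs : At0 1 0 q.s x := (q.s_reg x hx3.1 hx3.2).of_le (by simp)
    have h1 := H181.db0_smul (L := L) (a := a) (κ := 0) hf hs (q.s_sec x hx3.1 hx3.2) i
    rw [H181.db0_congr (huev x hx), h1, q.s_hol x hx3.1 hx3.2,
      dbar0_ext0 q.e_mem hx3.1 ((hu₁s _ hxe).differentiableAt (by simp))]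
    simp only [Pi.zero_apply, smul_zero, add_zero]
    have hvv : LB.act (L.P x) (v x i - v' x i) = v x i - v' x i := by
      rw [H378.act_sub, hvs x i, hvs' x i]
    rw [q.eq_smul_s hx3 hvv]
    congr 1
    have h2 : ext1 0 q.e (fun z i => dzb i u₁ z) x = fun i => bp (v x i - v' x i) (q.t x) := by
      refine max_loc1_inj (κ := 0) (a' := fun x i => bp (v x i - v' x i) (q.t x)) q.e_mem hx3.1 ?_
      rw [max_loc1_ext1 q.e_mem (q.e.map_source hx3.1)]
      funext j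
      have h3 : dzb j u₁ (q.e x) = (1 / 4 : ℂ) • dzb j u₀ (q.e x) :=
        dzb_const_smul (1 / 4 : ℂ)
          ((hu1.contDiffAt (isOpen_ball.mem_nhds hxe)).differentiableAt (by simp)) j
      have h4 : loc1 0 q.e (fun x i => bp (v x i - v' x i) (q.t x)) (q.e x) j =
          q.d1 v (q.e x) j - q.d1 v' (q.e x) j := by
        rw [d1, d1, loc1_source hx3.1, loc1_source hx3.1, loc1_source hx3.1]
        have h5 : ∀ k, bp (v x k - v' x k) (q.t x) = bp (v x k) (q.t x) - bp (v' x k) (q.t x) := by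
          intro k
          have := bp_smul_left (-1) (v' x k) (q.t x)
          rw [sub_eq_add_neg, bp_add_left, ← neg_one_smul ℂ, this]
          ring
        simp only [h5, smul_eq_mul, Fin.sum_univ_two]
        ring
      rw [h4, h3, dzb_eq_db, hu3 _ hxe j]
      simp only [hβ, Pi.smul_apply, Pi.sub_apply, smul_eq_mul]
      ring
    rw [h2]
  · intro z hz
    have hz2 : z ∈ Ω₂ := closedBall_subset_ball (by linarith) hz
    have hβb : ∀ z ∈ ball z₀ δ, ‖β z‖ ≤ 4 * ((2 * B ^ 2 + 1) * V) := by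
      intro z hz
      have hz3 := hΩ3 hz
      have hxN : q.e.symm z ∈ N := ⟨z, hz, rfl⟩
      have hez := q.e.right_inv (q.ball_sub hz3)
      have h1 : ‖q.d1 v z‖ ≤ 2 * B ^ 2 * V := by
        have := p.norm_d1_le q (hNp3 hxN) (hNq3 hxN) hB
          ⟨fun y hy => htr.pq y (hy ▸ hxN), fun y hy => htr.qp y (hy ▸ hxN),
            fun y hy => htr.fr y (hy ▸ hxN)⟩ hvs (hV _ hxN)
        rwa [hez] at this
      have h2 : ‖q.d1 v' z‖ ≤ V := by
        have := hV' _ hxN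
        rwa [hez] at this
      simp only [hβ]
      rw [norm_smul]
      have h3 : ‖(4 : ℂ)‖ = 4 := by norm_num
      rw [h3]
      have h4 := norm_sub_le (q.d1 v' z) (q.d1 v z)
      nlinarith
    have h1 := hu4 _ hβb z hz
    have h2 : ‖q.d0 u z‖ = 1 / 4 * ‖u₀ z‖ := by
      rw [hd0 z hz2, hu₁, norm_smul]
      norm_num
    rw [h2]
    have h3 : ‖u₀ z‖ ≤ cW δ hδ * (cU * (4 * B ^ 5 * W + W') + 4 * ((2 * B ^ 2 + 1) * V)) := h1
    have h5 : 0 ≤ cW δ hδ * (cU * (4 * B ^ 5 * W + W')) :=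
      mul_nonneg (cW_nonneg δ hδ) (by positivity)
    nlinarith

end Patch

end Vale.Agent.P267.H869
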