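import Vale.Agent.P267.H869.PatchLem

/-!
# P267 / XA-SMOOTH (helper869): patches, the functionals and the chart formulas for integrals
-/

set_option linter.unusedVariables false
set_option linter.unusedSectionVars false

open scoped Manifold ContDiff ComplexConjugate Matrix ComplexOrder Topology
open MeasureTheory Set Filter Metric

noncomputable section

namespace Vale.Agent.P267.H869

open FL
open Vale.Agent.P267.H306 (bp pr bpL bpL_apply Test0 Test1 D0 bp_add_left bp_add_right bp_smul_left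
  bp_smul_right bp_zero_left bp_zero_right norm_bp_le)
open Vale.Agent.P267.H181 (ext0 ext1 ext2)

variable {M : Type} [TopologicalSpace M] [ChartedSpace C2 M]
variable {ι : Type} [Fintype ι] [DecidableEq ι]

theorem Af_add {L : LB M ι} (A : Test1 L.dual 1 →ₗ[ℂ] ℂ) {η η' : M → Fin 2 → EuclideanSpace ℂ ι}
    (h : η ∈ Test1 L.dual 1) (h' : η' ∈ Test1 L.dual 1) :
    Af A (fun x i => η x i + η' x i) = Af A η + Af A η' := by
  have h2 : (fun x i => η x i + η' x i) ∈ Test1 L.dual 1 := (Test1 L.dual 1).add_mem h h'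
  rw [Af_eq A h, Af_eq A h', Af_eq A h2, ← map_add]
  rfl

theorem Af_smul {L : LB M ι} (A : Test1 L.dual 1 →ₗ[ℂ] ℂ) (c : ℂ)
    {η : M → Fin 2 → EuclideanSpace ℂ ι} (h : η ∈ Test1 L.dual 1) :
    Af A (fun x i => c • η x i) = c * Af A η := by
  have h2 : (fun x i => c • η x i) ∈ Test1 L.dual 1 := (Test1 L.dual 1).smul_mem c h
  rw [Af_eq A h, Af_eq A h2, ← smul_eq_mul, ← map_smul]
  rfl

namespace Patch

variable {L : LB M ι} {a : M → Fin 2 → ℂ} (p : Patch L a) (A : Test1 L.dual 1 →ₗ[ℂ] ℂ)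

theorem J1_add (f g : C2 → Fin 2 → ℂ) :
    p.J1 (fun z => f z + g z) = fun x i => p.J1 f x i + p.J1 g x i := by
  funext x i
  rw [J1, J1, J1, ← add_smul]
  congr 1
  by_cases hx : x ∈ p.e.source
  · simp only [ext1, if_pos hx, Pi.add_apply, smul_eq_mul, Fin.sum_univ_two]
    ring
  · simp only [ext1, if_neg hx, add_zero]

theorem J1_smul (c : ℂ) (f : C2 → Fin 2 → ℂ) :
    p.J1 (fun z => c • f z) = fun x i => c • p.J1 f x i := by
  funext x i
  rw [J1, J1, smul_smul]
  congr 1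
  by_cases hx : x ∈ p.e.source
  · simp only [ext1, if_pos hx, Pi.smul_apply, smul_eq_mul, Fin.sum_univ_two]
    ring
  · simp only [ext1, if_neg hx, mul_zero]

variable [IsManifold 𝓘(ℂ, C2) ω M] [T2Space M]

theorem J1_mem {g : C2 → Fin 2 → ℂ} (hg : Test (ball (0 : C2) 3) g) :
    p.J1 g ∈ Test1 L.dual 1 := (p.t1F_J1 hg subset_rfl).mem

theorem Lam_add {f g : C2 → Fin 2 → ℂ} (hf : Test (ball (0 : C2) 3) f)
    (hg : Test (ball (0 : C2) 3) g) :
    p.Lam A (fun z => f z + g z) = p.Lam A f + p.Lam A g := by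
  rw [Lam, J1_add, Af_add A (p.J1_mem hf) (p.J1_mem hg)]
  rfl

theorem Lam_smul (c : ℂ) {f : C2 → Fin 2 → ℂ} (hf : Test (ball (0 : C2) 3) f) :
    p.Lam A (fun z => c • f z) = c * p.Lam A f := by
  rw [Lam, J1_smul, Af_smul A c (p.J1_mem hf)]
  rfl

theorem lf_Lam {W : ℝ} (hA : p.Bd A W) : LF (Fin 2 → ℂ) (ball 0 3) W (p.Lam A) :=
  ⟨fun f g hf hg => p.Lam_add A hf hg, fun c f hf => p.Lam_smul A c hf, hA⟩

theorem U_add {w w' : M → EuclideanSpace ℂ ι} (h : T2F L (p.dom 3) w) (h' : T2F L (p.dom 3) w') :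
    p.U A (fun x => w x + w' x) = p.U A w + p.U A w' := by
  have ht := p.test_c2 (Ω := ball (0 : C2) 3) subset_rfl (fun x hx => hx.2) h
  have ht' := p.test_c2 (Ω := ball (0 : C2) 3) subset_rfl (fun x hx => hx.2) h'
  rw [U, U, U, c2_add, Uf, Uf, Uf, ← p.Lam_add A (test_chi_T2 ht) (test_chi_T2 ht')]
  congr 1
  funext z
  rw [T2_add ht.continuous ht.cpt ht'.continuous ht'.cpt, smul_add]

theorem U_smul (c : ℂ) {w : M → EuclideanSpace ℂ ι} (h : T2F L (p.dom 3) w) :
    p.U A (fun x => c • w x) = c * p.U A w := by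
  have ht := p.test_c2 (Ω := ball (0 : C2) 3) subset_rfl (fun x hx => hx.2) h
  rw [U, U, c2_smul, Uf, Uf, ← p.Lam_smul A c (test_chi_T2 ht)]
  congr 1
  funext z
  rw [T2_smul, smul_comm]

/-! ### `∂̄` of the extensions -/

theorem db0_J0 (han : Reg1 ∞ 0 (ng a)) {b : C2 → ℂ} (hb : Test (ball (0 : C2) 3) b) :
    L.dual.db0 (ng a) 1 (p.J0 b) = p.J1 (dbV b) := by
  funext x i
  by_cases hx : x ∈ p.dom 3
  · have hf : At0 1 1 (ext0 1 p.e b) x := max_at0_ext0 p.e_mem hx.1 (hb.smooth.of_le (by simp)).contDiffAt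
    have hs : At0 1 0 p.t x := (p.t_reg x hx.1 hx.2).of_le (by simp)
    have h1 := H181.db0_smul (L := L.dual) (a := ng a) (κ := 1) hf hs (p.t_sec x hx.1 hx.2) i
    have h2 : dbar0 1 (ext0 1 p.e b) x = ext1 1 p.e (fun z i => dzb i b z) x :=
      dbar0_ext0 p.e_mem hx.1 (hb.smooth.differentiable (by simp) _)
    have h3 : (fun (z : C2) (i : Fin 2) => dzb i b z) = dbV b := by
      funext z i
      exact dzb_eq_db i b z
    rw [p.t_hol x hx.1 hx.2, h2, h3] at h1
    simp only [Pi.zero_apply, smul_zero, add_zero] at h1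
    exact h1
  · have h0 : ∀ z ∉ tsupport b, b z = 0 := fun z hz => image_eq_zero_of_notMem_tsupport hz
    have h1 : x ∉ tsupport (p.J0 b) := fun h => hx (p.mem_dom_of_image subset_rfl
      (image_mono hb.supp ((p.t0_J0 hb subset_rfl).2 h)))
    have h2 : p.J0 b =ᶠ[𝓝 x] (0 : M → EuclideanSpace ℂ ι) := notMem_tsupport_iff_eventuallyEq.1 h1
    rw [H306.db0_congr L.dual (ng a) h2, H306.db0_zero]
    have h3 : p.J1 (dbV b) x = 0 := p.J1_eq_zero (K := ball (0 : C2) 3)
      (fun z hz => hb.dbV.eq_zero hz) fun h => hx (p.mem_dom_of_image subset_rfl h)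
    rw [h3]
    rfl

theorem db1_J1 {g : C2 → Fin 2 → ℂ} (hg : Test (ball (0 : C2) 3) g) :
    L.dual.db1 (ng a) 1 (p.J1 g) = p.J2 (dbF g) := by
  funext x
  by_cases hx : x ∈ p.dom 3
  · have hf : At1 1 1 (ext1 1 p.e g) x := max_at1_ext1 p.e_mem hx.1 (hg.smooth.of_le (by simp)).contDiffAt
    have hs : At0 1 0 p.t x := (p.t_reg x hx.1 hx.2).of_le (by simp)
    have h1 := H181.db1_smul_right (L := L.dual) (a := ng a) (κ := 1) hf hs
      (p.t_sec x hx.1 hx.2)
    have h2 : dbar1 1 (ext1 1 p.e g) x =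
        ext2 1 p.e (fun z => dzb 0 (fun y => g y 1) z - dzb 1 (fun y => g y 0) z) x :=
      dbar1_ext1 p.e_mem hx.1 (hg.smooth.differentiable (by simp) _)
    have h3 : (fun z => dzb 0 (fun y => g y 1) z - dzb 1 (fun y => g y 0) z) = dbF g := by
      funext z
      rw [dzb_eq_db, dzb_eq_db]
      rfl
    rw [p.t_hol x hx.1 hx.2, h2, h3] at h1
    simp only [Pi.zero_apply, smul_zero, sub_zero] at h1
    exact h1
  · have h1 : x ∉ tsupport (p.J1 g) := fun h => hx (p.mem_dom_of_image subset_rfl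
      ((p.t1F_J1 hg subset_rfl).supp h))
    have h2 : p.J1 g =ᶠ[𝓝 x] fun _ => (0 : Fin 2 → EuclideanSpace ℂ ι) :=
      notMem_tsupport_iff_eventuallyEq.1 h1
    have h3 : p.J2 (dbF g) x = 0 := p.J2_eq_zero (K := ball (0 : C2) 3)
      (fun z hz => hg.dbF.eq_zero hz) fun h => hx (p.mem_dom_of_image subset_rfl h)
    rw [h3, H181.db1_congr h2, LB.db1]
    have h4 : dbar1 1 (fun _ : M => (0 : Fin 2 → EuclideanSpace ℂ ι)) x = 0 := by
      have h5 : ∀ j : Fin 2, (fun z => loc1 1 (chartAt C2 x)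
          (fun _ : M => (0 : Fin 2 → EuclideanSpace ℂ ι)) z j) = fun _ => 0 := by
        intro j
        funext z
        simp [loc1]
      rw [dbar1, h5, h5, dzb_const, dzb_const, sub_zero]
    rw [h4]
    simp only [Pi.zero_apply, smul_zero, sub_zero, add_zero]
    exact H306.act_zero _

/-! ### integrals in the patch -/

variable [SigmaCompactSpace M]

/-- integral of a density supported in the patch -/
theorem intX_patch {b : M → ℂ} {K : Set M} (hK : IsCompact K) (hKd : K ⊆ p.dom 3)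
    (h0 : ∀ x ∉ K, b x = 0) (hr : ∀ x ∈ K, At2 0 1 b x) {F : C2 → ℂ}
    (hF : ∀ z ∈ ball (0 : C2) 3, loc2 1 p.e b z = F z) (hF0 : ∀ z ∉ ball (0 : C2) 3, F z = 0) :
    intX b = 4 * ∫ z, F z := by
  have hreg : Reg2 0 1 b := by
    refine reg2_iff_at.2 fun x => ?_
    by_cases hx : x ∈ K
    · exact hr x hx
    · refine (at2_zero (V := ℂ)).congr ?_
      filter_upwards [hK.isClosed.isOpen_compl.mem_nhds hx] with y hy
      exact h0 y hy
  have hc : HasCompactSupport b := HasCompactSupport.intro hK h0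
  have h1 := intX_chart_max hreg hc p.e_mem fun x hx => h0 x fun h => hx (hKd h).1
  rw [h1]
  congr 1
  have h2 : ∫ z in p.e.target, loc2 1 p.e b z = ∫ z in p.e.target, F z := by
    refine setIntegral_congr_fun p.e.open_target.measurableSet fun z hz => ?_
    by_cases hz3 : z ∈ ball (0 : C2) 3
    · exact hF z hz3
    · rw [hF0 z hz3]
      refine loc2_zero_pt (h0 _ fun h => hz3 ?_)
      have := (hKd h).2
      rwa [mem_preimage, p.e.right_inv hz] at this
  rw [h2]
  refine setIntegral_eq_integral_of_forall_compl_eq_zero fun z hz => hF0 z fun h => hz (p.ball_sub h)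

theorem intX_pr_J0 {r : M → EuclideanSpace ℂ ι} (hr : Reg2 ∞ 0 r) {b : C2 → ℂ}
    (hb : Test (ball (0 : C2) 3) b) : intX (pr r (p.J0 b)) = 4 * ∫ z, p.d2 r z * b z := by
  obtain ⟨hc, ht, hcl, hci⟩ := p.test_cpt hb subset_rfl
  have hb0 : ∀ z ∉ tsupport b, b z = 0 := fun z hz => image_eq_zero_of_notMem_tsupport hz
  have hsub : p.e.symm '' tsupport b ⊆ p.dom 3 := fun x hx =>
    p.mem_dom_of_image subset_rfl (image_mono hb.supp hx)
  refine p.intX_patch hci hsub (fun x hx => ?_) (fun x hx => ?_) (fun z hz => ?_) fun z hz => ?_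
  · rw [pr, p.J0_eq_zero hb0 hx, bp_zero_right]
  · have h1 : At2 0 (0 + 1) (fun x => bp (r x) (p.J0 b x)) x :=
      At2.bilin' (B := bpL (ι := ι)) ((hr.at x).of_le (by simp))
        (p.at0_J0 (by simp) (hsub hx) (hb.smooth.of_le (by simp)).contDiffAt)
    rwa [zero_add] at h1
  · have hx := p.symm_mem_dom le_rfl hz
    have hz' := p.e.right_inv (p.ball_sub hz)
    have h1 : pr r (p.J0 b) (p.e.symm z) =
        (fun x => bp (r x) (p.t x) * ext0 1 p.e b x) (p.e.symm z) := by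
      simp only [pr, J0, bp_smul_right]
      ring
    rw [loc2_pt (s' := fun x => bp (r x) (p.t x) * ext0 1 p.e b x) h1]
    have h2 : loc0 1 p.e (ext0 1 p.e b) z = b z := max_loc0_ext0 p.e_mem (p.ball_sub hz)
    rw [d2, ← h2]
    simp only [loc2, loc0, zpow_zero, smul_eq_mul]
    ring
  · rw [hb.eq_zero hz, mul_zero]

theorem intX_wdg {N : Set M} (hN : N ⊆ p.dom 3) {v η : M → Fin 2 → EuclideanSpace ℂ ι}
    (hv : ∀ x ∈ N, At1 ∞ 0 v x) (h : T1F L N η) :
    intX (wdg v η) =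
      4 * ∫ z, (p.d1 v z 0 * p.c1 η z 1 - p.d1 v z 1 * p.c1 η z 0) := by
  have h3 := h.mono hN
  refine p.intX_patch h.cpt.isCompact (h3.supp) (fun x hx => ?_) (fun x hx => ?_)
    (fun z hz => ?_) fun z hz => ?_
  · have : η x = 0 := image_eq_zero_of_notMem_tsupport hx
    simp [wdg, this]
  · have h1 : At2 0 (0 + 1) (fun x => bp (v x 0) (η x 1) - bp (v x 1) (η x 0)) x :=
      At2.bilin11 (B := bpL (ι := ι)) ((hv x (h.supp hx)).of_le (by simp))
        ((h.reg.at x).of_le (by simp))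
    rwa [zero_add] at h1
  · have hx := p.symm_mem_dom le_rfl hz
    have hη : ∀ i, η (p.e.symm z) i =
        bp (p.s (p.e.symm z)) (η (p.e.symm z) i) • p.t (p.e.symm z) := fun i =>
      p.eq_smul_t hx (h.sec _ i)
    have hb : ∀ i j, bp (v (p.e.symm z) i) (η (p.e.symm z) j) =
        bp (p.s (p.e.symm z)) (η (p.e.symm z) j) * bp (v (p.e.symm z) i) (p.t (p.e.symm z)) := by
      intro i j
      conv_lhs => rw [hη j]
      rw [bp_smul_right]
    rw [c1, if_pos hz, d1, loc2]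
    simp only [wdg, hb, loc1, zpow_zero, zpow_one, smul_eq_mul, Fin.sum_univ_two,
      Matrix.det_fin_two, map_sub, map_mul]
    ring
  · rw [c1, if_neg hz]
    simp

theorem intX_pr_sec {u w : M → EuclideanSpace ℂ ι} {N : Set M}
    (hN : N ⊆ p.dom 3) (hu : ∀ x ∈ N, At0 ∞ 0 u x) (h : T2F L N w) :
    intX (pr u w) = 4 * ∫ z, p.d0 u z * p.c2 w z := by
  refine p.intX_patch h.cpt.isCompact (h.supp.trans hN) (fun x hx => ?_) (fun x hx => ?_)
    (fun z hz => ?_) fun z hz => ?_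
  · have : w x = 0 := image_eq_zero_of_notMem_tsupport hx
    simp [pr, this]
  · have h1 : At2 0 (0 + 1) (fun x => bp (u x) (w x)) x :=
      At2.bilin (B := bpL (ι := ι)) ((hu x (h.supp hx)).of_le (by simp))
        ((h.reg.at x).of_le (by simp))
    rwa [zero_add] at h1
  · have hx := p.symm_mem_dom le_rfl hz
    have hη := p.eq_smul_t hx (h.sec (p.e.symm z))
    have hb : bp (u (p.e.symm z)) (w (p.e.symm z)) =
        bp (p.s (p.e.symm z)) (w (p.e.symm z)) * bp (u (p.e.symm z)) (p.t (p.e.symm z)) := by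
      conv_lhs => rw [hη]
      rw [bp_smul_right]
    rw [c2, if_pos hz, d0, loc2]
    simp only [pr, hb, loc0, loc2, zpow_zero, zpow_one, smul_eq_mul]
    ring
  · rw [c2, if_neg hz]
    simp

end Patch

end Vale.Agent.P267.H869
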